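import Crest.Agent.X212.Msi61.Tw
import Crest.Agent.X212.Pte3.Nr1

/-!
# Row 212, MS-NEAR (helper74): strong convergence gives convergence in a twisted chart
-/

set_option autoImplicit false
set_option linter.unusedSectionVars false
noncomputable section
open scoped Manifold ContDiff Topology InnerProductSpace
open MeasureTheory Set Function Filter Real

namespace Crest.Agent.X212.Nr74
open An An.Pre Sob92 Mod61 Nd18 Eqv71 Nk89 Cyf70 End3 End14 Pj41 Neck67 Bki64 Cmp73 Msi61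
open M (Mf)

/-- a bound for each index and a uniform bound -/
abbrev Two {α : Type} (l : Filter α) (p : α → ℕ → ℝ → Prop) : Prop :=
  (∀ᶠ i in l, ∀ k, ∃ C, p i k C) ∧ ∀ k, ∃ C, ∀ᶠ i in l, p i k C

theorem Two.map {α : Type} {l : Filter α} {p q : α → ℕ → ℝ → Prop} {a : α → Prop}
    (h : Two l p) (ha : ∀ᶠ i in l, a i) (f : ∀ k C, ∃ C', ∀ i, a i → p i k C → q i k C') :
    Two l q :=
  ⟨(h.1.and ha).mono fun i hi k => let ⟨C, hC⟩ := hi.1 k; let ⟨C', h'⟩ := f k C; ⟨C', h' i hi.2 hC⟩,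
    fun k => let ⟨C, hC⟩ := h.2 k; let ⟨C', h'⟩ := f k C
      ⟨C', (hC.and ha).mono fun i hi => h' i hi.2 hi.1⟩⟩

section gen
variable {E : Type} [NormedAddCommGroup E] [NormedSpace ℝ E] [FiniteDimensional ℝ E]
  [MeasurableSpace E] [BorelSpace E]
  {HM : Type} [TopologicalSpace HM] {I : ModelWithCorners ℝ E HM} [I.Boundaryless]
  {M : Type} [TopologicalSpace M] [ChartedSpace HM M] [IsManifold I ∞ M]
  [MeasurableSpace M] [T2Space M] [BorelSpace M] [SecondCountableTopology M]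
  {κ : Type} [Fintype κ] {lam : Type} [Fintype lam]
  {T : Type} [NormedAddCommGroup T] [NormedSpace ℝ T]
  {𝔉 : Fam I M (Option κ) lam T} {δ : ℝ} {r k : ℕ} {α : Type} {l : Filter α}

theorem ulim_rot {B : Base M (Option κ) lam} {O : Set M}
    {e : α → Option κ → Π x : M, TangentSpace I x} {c : α → Cfg M (Option κ) lam r}
    {c₀ : Cfg M (Option κ) lam r} {u : ∀ i, M → CL (c i).m.V c₀.m.V} {ζ : α → Circle}
    (h : ULim I B l O e c c₀ u ζ) (hJ : c₀.m.J * c₀.m.J = -1) {θ : α → M → ℝ} {θ₀ : M → ℝ}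
    (hθ : Cv I l O θ θ₀) {Φ : M → c₀.m.V} (hΦ : ∀ x, Φ x = cs c₀.m.J (Circle.exp (θ₀ x)) (c₀.Φ x)) :
    ULim I B l O e (fun i => rot (θ i) (c i)) ⟨c₀.m, c₀.W, Φ, c₀.z⟩ u ζ := by
  have s : ContDiff ℝ ∞ fun t : ℝ => Complex.exp (t * Complex.I) :=
    (Complex.contDiff_exp (𝕜 := ℝ)).comp (Complex.ofRealCLM.contDiff.mul contDiff_const)
  refine ⟨h.m, h.A, (((hθ.post_smooth s).clm (csB c₀.m.J)).app h.Φ).congr (fun x hx => ?_)
    fun x _ => hΦ x, h.z⟩
  obtain ⟨N, h1, h2, h3⟩ := h.m x hx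
  filter_upwards [h3.prod_mk (h1.mem_nhds h2)] with q k
  rw [map_cs (k.1.J _ k.2), cs_cs hJ, mul_comm, ← cs_cs hJ]
  rfl

theorem eb_tc {P : End 𝔉} {ψ : M → ℝ} {R₀ R : ℝ} (H : 𝔉.OK) (h : P.OK ψ δ R₀) {t : T}
    (ht : t ∈ 𝔉.Q) {o : Ref 𝔉} (hR : R₀ ≤ R) (hl : P.Lit o R) {c : Cfg M (Option κ) lam r}
    (hc : Adm0 c 𝔉.B (𝔉.G t)) {V : M → CL c.m.V o.m.V} {ζ : Circle} {d L C : ℝ} (hL : R ≤ L)
    (e : TC o P.U c t V ζ d L k C) :
    P.EB c (P.sl o (R + 1) t) (fun z => V (P.K.ψ z)) ζ d (L + 1) k (C * exp d) := fun s hs => by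
  have hi : ∀ z ∈ win P.Y.M (P.sg * s) 1, s - 1 < P.sg * z.2 := fun z hz => by
    linarith [(abs_lt.1 (mem_win.1 hz)).1]
  have hi' : ∀ z ∈ win P.Y.M (P.sg * s) 1, R < P.sg * z.2 := fun z hz => by linarith [hi z hz]
  have f := ((cl_iff H h ht hR hl (win_op _ _) hi' (U := V) fun _ _ => rfl).2 ((e (s - 1)
    (by linarith)).mono ((fRel0 H h).mono (win_op _ _) fun z hz => hR.trans_lt (hi' z hz)).isOpen_image
      (image_subset_iff.2 fun z hz => mem_U h (by linarith) (hi z hz)) le_rfl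
      (η' := C * exp d * exp (-d * s)) (le_of_eq (by rw [mul_assoc, ← exp_add]; ring_nf)))).cls
    (adm_sl H h ht hR hl) isOpen_Ioo ((admOn_pb H h ht hc).mono fun z hz => hR.trans_lt (hi' z hz))
  exact ⟨f.op, f.m, f.A, f.P⟩

end gen

variable {κ lam : Type} [Fintype κ] [Fintype lam] {Y : Mf 3} [CompactSpace Y.M]
  {N : ND Y.M lam} {D : YD Y.I Y.M κ lam} {β β' : YC Y.M κ lam}

/-- equivalences preserve closeness, with a constant -/
theorem cls_post (hD : D.OK) (hβ : D.Adm β) (hβ' : D.Adm β') (e : D.Eqv β β') :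
    ∃ (v : Y.M × ℝ → CL β.m.V β'.m.V) (ξ : Circle), ∀ k, ∃ A, 0 ≤ A ∧
      ∀ (c : Cfg (Y.M × ℝ) (Option κ) lam 0) u ζ S η, Adm0 c D.B D.G → D.Cls c β u ζ S k η →
      D.Cls c β' (fun x => v x ∘L u x) (ξ * ζ) S k (A * |η|) := by
  obtain ⟨v : Y.M × ℝ → CL β.m.V β'.m.V, ξ, e⟩ := e
  obtain ⟨C, hC⟩ := Pte3.cb_eqv hD hβ hβ' e
  obtain ⟨C', hC'⟩ := Cb_clm adL ⟨C, hC⟩
  obtain ⟨C'', hC''⟩ := Cb_comp (Cb_const (csB β'.m.J ξ)) ⟨C, hC⟩
  refine ⟨v, ξ, fun k => ⟨max (2 ^ k * |C k| * (2 ^ k * |C' k|)) (2 ^ k * |C'' k|),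
    le_max_of_le_right (by positivity), fun c u ζ S η hc H' => ?_⟩⟩
  have a : Tmp64.AdmOn c D.B D.G (univ ×ˢ S) :=
    ⟨OK.on hc.ok _, IsConn.on hc.conn _, fun x _ => hc.sm x, fun x _ => hc.pos x, .inl rfl⟩
  have H := cl_of_cls hβ a H'
  have i := (Iso0.of_mEq isOpen_univ e.m (OK.on hβ.adm.ok _) (OK.on hβ'.adm.ok _)).mono
    (subset_univ (univ ×ˢ S))
  refine Cl.cls hβ' H'.op a ⟨H.op, H.iso.trans i, fun a => ?_, ?_⟩
  · refine (((Lb.of_CB hC.1 (hC.2 k)).comp H.op ((H.A a).comp H.op (Lb.of_CB hC'.1 (hC'.2 k)))).congr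
      H.op fun x hx => ?_).mono (le_trans (le_of_eq ?_)
        (mul_le_mul_of_nonneg_right (le_max_left _ _) (abs_nonneg η)))
    · exact (dA_comp (c'' := cy β') H.iso i hx a).trans (add_eq_right.2 ((congrArg (· ∘L trn (v x))
        ((par0_iff ((IsConn.on hβ'.adm.conn _).proj' hD.B)).2 e.W x trivial a)).trans
          (ContinuousLinearMap.zero_comp _)))
    · rw [abs_of_nonneg (by positivity : 0 ≤ 2 ^ k * |η| * |C' k|)]; ring
  · refine (((Lb.of_CB hC''.1 (hC''.2 k)).app H.op H.P).congr H.op fun x hx => ?_).mono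
      (mul_le_mul_of_nonneg_right (le_max_right _ _) (abs_nonneg η))
    refine (dP_comp hβ'.adm.ok.Jsq i hx ζ ξ).trans ?_
    rw [show dP (cy β) (cy β') v ξ x = 0 from sub_eq_zero.2 (e.Φ x trivial).symm, zero_add]
    rfl

theorem eb_rot {δ : ℝ} {O' : Set (Y.M × ℝ)} (a : Bool) {c : Cfg (Y.M × ℝ) (Option κ) lam 0}
    {v : Y.M × ℝ → CL c.m.V β.m.V} {ζ ζ' : Circle} {d L C τ : ℝ} {k : ℕ} (hJ : β.m.J * β.m.J = -1)
    (hL : 2 ≤ L) (e : ζ' = ζ * Circle.exp (bif a then τ else 0))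
    (H : (endZ ℝ Y D δ O' a).EB c β v ζ d L k C) :
    (endZ ℝ Y D δ O' a).EB (rot (-ang τ) c) β v ζ' d L k C := fun s hs => by
  have f := cls_rot (c := c) (θ := -ang τ) (a := -bif a then τ else 0) hJ (fun x hx => by
    have h1 := hx.2.1
    have h2 := hx.2.2
    cases a
    · exact congrArg _ (ang_bot τ (by simp only [End.sg, cond_false] at h2; linarith))
    · exact congrArg _ (ang_top τ (by simp only [End.sg, cond_true] at h1; linarith)))
    (show D.Cls c β v ζ _ k _ from ⟨(H s hs).op, (H s hs).m, (H s hs).A, (H s hs).P⟩)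
  rw [neg_neg, ← e] at f
  exact ⟨f.op, f.m, f.A, f.P⟩

theorem cv_ang {α : Type} {l : Filter α} {t : α → ℝ} {t₀ : ℝ} (h : Tendsto t l (𝓝 t₀)) :
    Cv (IC Y.I) l univ (fun i => -ang (Y := Y) (t i)) (-ang t₀) :=
  ((Cv.consts h).mul (.fixed' (g := ang 1) (sm_ang 1))).neg.congr' isOpen_univ
    (.of_forall fun i x _ => by simp [ang]) fun x _ => by simp [ang]

variable (N D) in
/-- **LEAF MS-NEAR** -/
theorem nearL (δ : ℝ) : NearL N D δ := by
  intro h b o _ R d β y₀ α 𝒰 c c₀ hl hd hβ he h0 ⟨g, ξ, hg⟩ hc ⟨⟨u, ζ, hu⟩, tb, tt⟩ k hk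
  have H := (h.X b).ok
  have hJ := o.ok.Jsq
  have R1 : 1 ≤ R := hl.le
  have eW : ∀ t, o.W t 0 = o.W y₀.t 0 := fun t => by simp only [Ref.W, Ref.A_eq]; rfl
  have tl : ∀ a : Bool, Tl D d 𝒰 c (β a) ((h.X b).P a).sg := fun a => by cases a; exacts [tb, tt]
  choose T v z hT using tl
  have hs := fun a => adm_sl H ((h.X b).okP a) y₀.ht hl.le (hl.lit a)
  choose G η hG using fun a => cls_post h.ok.ok (hβ a) (hs a) (he a y₀.t)
  obtain ⟨L, L1, L2⟩ : ∃ L, (∀ a, T a ≤ L) ∧ R + 1 ≤ L := ⟨max (max (T false) (T true)) (R + 1),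
    fun a => by cases a <;> simp, le_max_right _ _⟩
  have a1 := hc.mono fun i hi => adm0_rot (sm_ang (Y := Y) y₀.t).neg hi.1
  have U1 := Pte3.ulim_post H (y₀ := y₀) (c₀ := rot (-ang y₀.t) c₀) (g := g) (ξ := ξ) h0.ok
    ⟨hg.m, hg.W, fun x hx => by
      have := (eqOn_rot (θ := -ang y₀.t) hJ hg).Φ x hx
      simp only [id, cs_cs (J := y₀.cfg.m.J) hJ, ← Circle.exp_add, Pi.neg_apply, neg_add_cancel, Circle.exp_zero,
        Circle.coe_one, cs_one] at this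
      exact this, hg.z⟩
    (ulim_rot hu h0.ok.Jsq (cv_ang tendsto_const_nhds) fun _ => rfl) tendsto_const_nhds
    (W := fun i => (c i).W) (hc.mono fun i hi => ⟨hi.1.ok, fun _ _ _ => ⟨rfl, rfl⟩⟩)
  have key : ∀ a, ∃ (V : ∀ i, Y.M × ℝ → CL (c i).m.V o.m.V) (φ : α → Circle),
      Tendsto (fun i => φ i / (ξ * ζ i)) 𝒰 (𝓝 1) ∧ Two 𝒰 fun i j C => ((h.X b).P a).EB
        (rot (-ang y₀.t) (c i)) (((h.X b).P a).sl o (R + 1) y₀.t) (V i) (φ i) d (L + 1) j C := by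
    intro a
    have E : Two 𝒰 fun i j C => ((h.X b).P a).EB (rot (-ang y₀.t) (c i))
        (((h.X b).P a).sl o (R + 1) y₀.t) (fun x => G a x ∘L v a i x)
        (η a * z a i * Circle.exp (bif a then y₀.t else 0)) d L j C :=
      Two.map (hT a) hc fun j C => let ⟨A, A0, hA⟩ := hG a j
        ⟨A * |C|, fun i hi e => eb_rot a hJ (by linarith) rfl fun s hs => by
          have f := hA _ _ _ _ _ hi.1 (e s ((L1 a).trans hs))
          rw [abs_mul, abs_of_pos (exp_pos _), ← mul_assoc] at f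
          exact ⟨f.op, f.m, f.A, f.P⟩⟩
    obtain ⟨ξ', -, hξ⟩ := isCompact_univ.ultrafilter_le_nhds (𝒰.map fun i =>
      ξ * ζ i / (η a * z a i * Circle.exp (bif a then y₀.t else 0))) (by simp)
    obtain ⟨V, k1, k2, -⟩ := one_end (h.X b) hl (a1.mono fun i hi => ⟨y₀.ht, hi⟩) U1 (a := a)
      (subset_univ _) L2 (h.d0.trans hd) tendsto_const_nhds
      (fun s ζ f t _ => by unfold End.sl; rw [eW t]; exact f) E.1 E.2 hξ
    refine ⟨fun i x => V i (((h.X b).P a).K.ψ x), _, ?_, Two.map ⟨k1, k2⟩ a1 fun j C =>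
      ⟨_, fun i hi => eb_tc H ((h.X b).okP a) y₀.ht hl.le (hl.lit a) hi (by linarith)⟩⟩
    have := (tendsto_const_nhds (x := ξ')).div' (show Tendsto _ _ _ from hξ)
    rw [div_self'] at this
    exact this.congr fun i => by rw [div_div_eq_mul_div]
  choose V φ hφ hV using key
  have e0 : Tendsto (fun i => Complex.arg (φ false i / φ true i : Circle)) 𝒰 (𝓝 0) := by
    have e := (hφ false).div' (hφ true)
    simp only [div_div_div_cancel_right, div_one] at e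
    have := (Complex.continuousAt_arg Complex.one_mem_slitPlane).tendsto.comp
      ((continuous_subtype_val.tendsto _).comp e)
    rwa [Complex.arg_one] at this
  obtain ⟨ε, e1, e2⟩ : ∃ ε : α → ℝ, Tendsto ε 𝒰 (𝓝 0) ∧ ∀ i, φ false i = φ true i * Circle.exp (ε i) :=
    ⟨_, e0, fun i => by rw [Circle.exp_arg, mul_div_cancel]⟩
  obtain ⟨y, y₁, w, f1, f2, f3, f4, f5⟩ := End14.near (h.X b) o R (L + 1) d 0 y₀ α 𝒰
    (fun i => rot (-ang (ε i)) (rot (-ang y₀.t) (c i))) (fun i => y₀.t + ε i) (φ false)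
    (fun i a => V a i) hl (by linarith) hd (by simpa using e1.const_add y₀.t)
    ((hc.and a1).mono fun i hi => ⟨adm0_rot (sm_ang _).neg hi.2,
      fun x hx => rot_off (rot_off hi.1.2) x hx.2⟩)
    ⟨_, _, ulim_rot U1 hJ (cv_ang e1) (Φ := y₀.cfg.Φ) fun x => by simp [ang_zero]⟩
    (fun a _ => Two.map (hV a) (.of_forall fun _ => trivial) fun j C => ⟨C, fun i _ e => by
      unfold End.sl
      rw [eW]
      exact eb_rot a hJ (by linarith) (by cases a; exacts [by simp, e2 i]) e⟩)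
    (fun a _ s ζ f t _ => by unfold End.sl; rw [eW t]; exact f) k hk
  refine ⟨y, y₁, w, f1, f2, f3, f4, f5.mono fun i ⟨k1, U, θ, e⟩ =>
    ⟨U, θ, e.m, e.W, fun x hx => ?_, e.z⟩⟩
  have := e.Φ x hx
  simp only [id] at this ⊢
  rw [this, k1, map_cs (e.m.J x hx), map_cs (e.m.J x hx)]
  simp only [cs_cs (J := (y i).cfg.m.J) hJ]
  refine congrArg (fun t : Circle => cs _ t _) ?_
  simp only [ang_add, Pi.add_apply, Pi.neg_apply, ← Circle.exp_add]
  rw [mul_left_comm, ← Circle.exp_add, ← neg_add, add_comm (ang (ε i) x), add_neg_cancel,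
    Circle.exp_zero, mul_one]

end Crest.Agent.X212.Nr74
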